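import Mathlib

/-! ROW 134, module Semi (lead: helper34): the base probability space `(ℝ, PB)`:
density `(2/π) cos²` on `(-π/2, π/2)`; `SB = 2 sin` has the semicircle law, `ZB` is Haar distributed
on the unit circle, both are injective on `(-π/2, π/2)` and odd.  Definitions. -/

set_option autoImplicit false

namespace Crest.Agent.FGF

open MeasureTheory Real Set

/-- the interval `(-π/2, π/2)` -/
def IB : Set ℝ := Ioo (-(π / 2)) (π / 2)

/-- base measure: density `(2/π) cos²` on `(-π/2, π/2)` -/
noncomputable def PB : Measure ℝ :=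
  (volume.restrict IB).withDensity (fun x => ENNReal.ofReal (2 / π * cos x ^ 2))

/-- semicircular variable -/
noncomputable def SB (x : ℝ) : ℝ := 2 * sin x

/-- primitive of the density; `GB 0 = 0`, `GB (π/2) = 1/2`, strictly increasing on `[0, π/2]` -/
noncomputable def GB (x : ℝ) : ℝ := (x + sin x * cos x) / π

/-- Haar variable -/
noncomputable def ZB (x : ℝ) : ℂ :=
  (if 0 ≤ x then 1 else -1) * Complex.exp (2 * π * Complex.I * (GB |x| : ℝ))

/-- moments of the semicircle law -/
noncomputable def mS (k : ℕ) : ℂ := if Even k then (catalan (k / 2) : ℂ) else 0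

theorem IB_meas : MeasurableSet IB := measurableSet_Ioo

theorem ZB_norm (x : ℝ) : ‖ZB x‖ = 1 := by
  unfold ZB
  rw [norm_mul, Complex.norm_exp]
  have h : (2 * (π : ℂ) * Complex.I * ((GB |x| : ℝ) : ℂ)).re = 0 := by
    simp [Complex.mul_re]
  rw [h]
  split_ifs <;> simp

end Crest.Agent.FGF
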