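import Crest.Agent.FGF.SB0

/-! ROW 134, CHUNK R134-S-INJ. -/

set_option autoImplicit false

namespace Crest.Agent.FGF

open MeasureTheory Real Set

/-- CHUNK R134-S-INJ -/
theorem ZB_meas : Measurable ZB := by
  have hG : Measurable (fun x : ℝ => GB |x|) := by
    unfold GB
    exact ((measurable_id.abs.add ((measurable_sin.comp measurable_id.abs).mul
      (measurable_cos.comp measurable_id.abs))).div_const π)
  unfold ZB
  refine Measurable.mul ?_ ?_
  · exact Measurable.ite measurableSet_Ici measurable_const measurable_const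
  · exact Complex.measurable_exp.comp ((Complex.measurable_ofReal.comp hG).const_mul _)

/-- CHUNK R134-S-INJ -/
theorem ZB_neg (x : ℝ) (hx : x ≠ 0) : ZB (-x) = -ZB x := by
  unfold ZB
  rw [abs_neg]
  rcases lt_or_gt_of_ne hx with h | h
  · rw [if_pos (by linarith), if_neg (by linarith)]
    ring
  · rw [if_neg (by linarith), if_pos h.le]
    ring

/-- CHUNK R134-S-INJ -/
theorem SB_inj : InjOn SB IB := by
  intro x hx y hy h
  have h1 : sin x = sin y := by
    unfold SB at h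
    linarith
  exact Real.injOn_sin ⟨hx.1.le, hx.2.le⟩ ⟨hy.1.le, hy.2.le⟩ h1

private theorem SBInj_GB_mono : StrictMonoOn GB (Icc 0 (π / 2)) := by
  have hd : ∀ x : ℝ, HasDerivAt GB (2 * cos x ^ 2 / π) x := by
    intro x
    have h1 : HasDerivAt (fun x : ℝ => (x + sin x * cos x) / π)
        ((1 + (cos x * cos x + sin x * (-sin x))) / π) x :=
      ((hasDerivAt_id x).add ((hasDerivAt_sin x).mul (hasDerivAt_cos x))).div_const π
    have h2 : (1 + (cos x * cos x + sin x * (-sin x))) / π = 2 * cos x ^ 2 / π := by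
      congr 1
      nlinarith [sin_sq_add_cos_sq x]
    rw [h2] at h1
    exact h1
  refine strictMonoOn_of_deriv_pos (convex_Icc _ _) ?_ ?_
  · intro x _
    exact (hd x).continuousAt.continuousWithinAt
  · intro x hx
    rw [interior_Icc] at hx
    rw [(hd x).deriv]
    have hc : 0 < cos x := cos_pos_of_mem_Ioo ⟨by linarith [hx.1, pi_pos], hx.2⟩
    positivity

private theorem SBInj_GB_zero : GB 0 = 0 := by simp [GB]

private theorem SBInj_GB_half : GB (π / 2) = 1 / 2 := by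
  unfold GB
  rw [cos_pi_div_two, mul_zero, add_zero]
  field_simp

private theorem SBInj_exp {a b : ℝ} (ha : 0 ≤ a) (ha1 : a < 1) (hb : 0 ≤ b) (hb1 : b < 1)
    (h : Complex.exp (2 * π * Complex.I * (a : ℝ)) = Complex.exp (2 * π * Complex.I * (b : ℝ))) :
    a = b := by
  rw [Complex.exp_eq_exp_iff_exists_int] at h
  obtain ⟨n, hn⟩ := h
  have h1 : (2 * π * Complex.I : ℂ) * ((a : ℂ) - (b : ℂ) - (n : ℂ)) = 0 := by
    linear_combination hn
  have h2 : (2 * π * Complex.I : ℂ) ≠ 0 := Complex.two_pi_I_ne_zero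
  have h3 : (a : ℂ) - (b : ℂ) - (n : ℂ) = 0 := by
    rcases mul_eq_zero.mp h1 with h | h
    · exact absurd h h2
    · exact h
  have h4 : a - b - n = 0 := by
    exact_mod_cast h3
  have h5 : (n : ℝ) < 1 := by linarith
  have h6 : (-1 : ℝ) < n := by linarith
  have h7 : n = 0 := by
    have h8 : n < 1 := by exact_mod_cast h5
    have h9 : -1 < n := by exact_mod_cast h6
    omega
  rw [h7] at h4
  simp at h4
  linarith

private theorem SBInj_pos {x : ℝ} (h : 0 ≤ x) :
    ZB x = Complex.exp (2 * π * Complex.I * ((GB x : ℝ) : ℂ)) := by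
  unfold ZB
  rw [if_pos h, one_mul, abs_of_nonneg h]

private theorem SBInj_neg {x : ℝ} (h : x < 0) :
    ZB x = Complex.exp (2 * π * Complex.I * ((1 / 2 + GB (-x) : ℝ) : ℂ)) := by
  unfold ZB
  rw [if_neg (not_le.mpr h), abs_of_neg h]
  have h1 : (2 * π * Complex.I * ((1 / 2 + GB (-x) : ℝ) : ℂ)) =
      π * Complex.I + 2 * π * Complex.I * ((GB (-x) : ℝ) : ℂ) := by
    push_cast
    ring
  rw [h1, Complex.exp_add, Complex.exp_pi_mul_I]

/-- CHUNK R134-S-INJ.  PROOF: `GB` is strictly increasing on `[0, π/2]` with values in `[0, 1/2]`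
(`< 1/2` on `[0, π/2)`), so `ZB x = exp (2 π i a)` with `a = GB x ∈ [0, 1/2)` for `x ≥ 0` and
`a = 1/2 + GB (-x) ∈ (1/2, 1)` for `x < 0`; `a ↦ exp (2 π i a)` is injective on `[0, 1)`. -/
theorem ZB_inj : InjOn ZB IB := by
  have hpi : 0 ≤ π / 2 := by positivity
  have hlt : ∀ x : ℝ, 0 ≤ x → x < π / 2 → GB x < 1 / 2 := by
    intro x h0 h1
    rw [← SBInj_GB_half]
    exact SBInj_GB_mono ⟨h0, h1.le⟩ ⟨hpi, le_rfl⟩ h1
  have hge : ∀ x : ℝ, 0 ≤ x → x < π / 2 → 0 ≤ GB x := by
    intro x h0 h1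
    rw [← SBInj_GB_zero]
    exact SBInj_GB_mono.monotoneOn ⟨le_rfl, hpi⟩ ⟨h0, h1.le⟩ h0
  have hgt : ∀ x : ℝ, 0 < x → x < π / 2 → 0 < GB x := by
    intro x h0 h1
    rw [← SBInj_GB_zero]
    exact SBInj_GB_mono ⟨le_rfl, hpi⟩ ⟨h0.le, h1.le⟩ h0
  intro x hx y hy h
  rcases le_or_gt 0 x with hx0 | hx0 <;> rcases le_or_gt 0 y with hy0 | hy0
  · rw [SBInj_pos hx0, SBInj_pos hy0] at h
    have h1 := SBInj_exp (hge x hx0 hx.2) (by linarith [hlt x hx0 hx.2])
      (hge y hy0 hy.2) (by linarith [hlt y hy0 hy.2]) h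
    exact SBInj_GB_mono.injOn ⟨hx0, hx.2.le⟩ ⟨hy0, hy.2.le⟩ h1
  · rw [SBInj_pos hx0, SBInj_neg hy0] at h
    have hy1 : -y < π / 2 := by linarith [hy.1]
    have hy2 : 0 < -y := by linarith
    have h1 := SBInj_exp (hge x hx0 hx.2) (by linarith [hlt x hx0 hx.2])
      (by linarith [hgt (-y) hy2 hy1]) (by linarith [hlt (-y) hy2.le hy1]) h
    linarith [hlt x hx0 hx.2, hgt (-y) hy2 hy1]
  · rw [SBInj_neg hx0, SBInj_pos hy0] at h
    have hx1 : -x < π / 2 := by linarith [hx.1]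
    have hx2 : 0 < -x := by linarith
    have h1 := SBInj_exp (by linarith [hgt (-x) hx2 hx1]) (by linarith [hlt (-x) hx2.le hx1])
      (hge y hy0 hy.2) (by linarith [hlt y hy0 hy.2]) h
    linarith [hlt y hy0 hy.2, hgt (-x) hx2 hx1]
  · rw [SBInj_neg hx0, SBInj_neg hy0] at h
    have hx1 : -x < π / 2 := by linarith [hx.1]
    have hx2 : 0 < -x := by linarith
    have hy1 : -y < π / 2 := by linarith [hy.1]
    have hy2 : 0 < -y := by linarith
    have h1 := SBInj_exp (by linarith [hgt (-x) hx2 hx1]) (by linarith [hlt (-x) hx2.le hx1])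
      (by linarith [hgt (-y) hy2 hy1]) (by linarith [hlt (-y) hy2.le hy1]) h
    have h2 : GB (-x) = GB (-y) := by linarith
    have h3 := SBInj_GB_mono.injOn ⟨hx2.le, hx1.le⟩ ⟨hy2.le, hy1.le⟩ h2
    linarith

end Crest.Agent.FGF
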