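import Crest.Agent.FGF.SBP

/-! ROW 134, CHUNK R134-S-MOM: moments of `SB`. -/

set_option autoImplicit false

namespace Crest.Agent.FGF

open MeasureTheory Real Set

theorem SBMom_sum_even (f : ℕ → ℂ) (hf : ∀ i, f (2 * i + 1) = 0) (l : ℕ) :
    ∑ j ∈ Finset.range (2 * l + 1), f j = ∑ i ∈ Finset.range (l + 1), f (2 * i) := by
  induction l with
  | zero => simp
  | succ l ih =>
    rw [Finset.sum_range_succ (fun i => f (2 * i)), ← ih,
      show 2 * (l + 1) + 1 = (2 * l + 1) + 1 + 1 by ring, Finset.sum_range_succ,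
      Finset.sum_range_succ, hf l, add_zero]
    rfl

theorem SBMom_mS_even (i : ℕ) : mS (2 * i) = (catalan i : ℂ) := by
  unfold mS
  rw [if_pos (by simp), Nat.mul_div_cancel_left i (by norm_num)]

theorem SBMom_mS_odd (i : ℕ) : mS (2 * i + 1) = 0 := by
  unfold mS
  rw [if_neg (by simp)]

/-- CHUNK R134-S-MOM.  PROOF: `k = 0`: both sides 0... (`τ(s) = 0`, empty sum).  If `k + 1` is odd then in each
product `mS j * mS (k - 1 - j)` one index is odd.  If `k + 1 = 2 l + 2` only the even `j = 2 i` contribute: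
`catalan_succ'` / `catalan_succ`. -/
theorem mS_rec (k : ℕ) : mS (k + 1) = ∑ j ∈ Finset.range k, mS j * mS (k - 1 - j) := by
  rcases Nat.even_or_odd' k with ⟨l, rfl | rfl⟩
  · rw [SBMom_mS_odd]
    symm
    refine Finset.sum_eq_zero fun j hj => ?_
    have hj' := Finset.mem_range.1 hj
    rcases Nat.even_or_odd' j with ⟨i, rfl | rfl⟩
    · have : 2 * l - 1 - 2 * i = 2 * (l - 1 - i) + 1 := by omega
      rw [this, SBMom_mS_odd, mul_zero]
    · rw [SBMom_mS_odd, zero_mul]
  · rw [show 2 * l + 1 + 1 = 2 * (l + 1) by ring, SBMom_mS_even,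
      SBMom_sum_even (fun j => mS j * mS (2 * l + 1 - 1 - j))
        (fun i => by simp only [SBMom_mS_odd, zero_mul]) l, catalan_succ]
    push_cast
    rw [Finset.sum_range]
    refine Finset.sum_congr rfl fun i _ => ?_
    have hi := i.2
    have h2 : 2 * l - 2 * (i : ℕ) = 2 * (l - (i : ℕ)) := by omega
    rw [h2, SBMom_mS_even, SBMom_mS_even]

theorem SBMom_J (l : ℕ) :
    (4 : ℝ) ^ l * ∫ x in (-(π / 2))..(π / 2), sin x ^ (2 * l) = π * (Nat.centralBinom l : ℝ) := by
  induction l with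
  | zero => simp
  | succ l ih =>
    have h := integral_sin_pow (a := -(π / 2)) (b := π / 2) (2 * l)
    rw [show 2 * (l + 1) = 2 * l + 2 by ring, h]
    have h1 : cos (-(π / 2)) = 0 := by rw [cos_neg, cos_pi_div_two]
    rw [h1, cos_pi_div_two]
    have h2 := Nat.succ_mul_centralBinom_succ l
    have h3 : ((l : ℝ) + 1) * (Nat.centralBinom (l + 1) : ℝ) =
        2 * (2 * (l : ℝ) + 1) * (Nat.centralBinom l : ℝ) := by exact_mod_cast h2
    have hl : (0 : ℝ) < (l : ℝ) + 1 := by positivity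
    push_cast
    have e : (4 : ℝ) ^ (l + 1) * ((sin (-(π / 2)) ^ (2 * l + 1) * 0 - sin (π / 2) ^ (2 * l + 1) * 0) /
        (2 * (l : ℝ) + 2) + (2 * (l : ℝ) + 1) / (2 * (l : ℝ) + 2) *
          ∫ x in (-(π / 2))..(π / 2), sin x ^ (2 * l)) =
        4 * (2 * (l : ℝ) + 1) / (2 * (l : ℝ) + 2) *
          ((4 : ℝ) ^ l * ∫ x in (-(π / 2))..(π / 2), sin x ^ (2 * l)) := by
      rw [mul_zero, mul_zero, sub_zero, zero_div, zero_add, pow_succ]
      ring
    rw [e, ih]
    have h4 : (Nat.centralBinom (l + 1) : ℝ) =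
        2 * (2 * (l : ℝ) + 1) * (Nat.centralBinom l : ℝ) / ((l : ℝ) + 1) := by
      rw [eq_div_iff hl.ne']
      linarith
    rw [h4]
    field_simp
    ring

theorem SBMom_real (k : ℕ) :
    ∫ x in (-(π / 2))..(π / 2), 2 / π * cos x ^ 2 * (2 * sin x) ^ k =
      if Even k then (catalan (k / 2) : ℝ) else 0 := by
  rcases Nat.even_or_odd' k with ⟨l, rfl | rfl⟩
  · rw [if_pos (by simp), Nat.mul_div_cancel_left l (by norm_num)]
    have e : (fun x : ℝ => 2 / π * cos x ^ 2 * (2 * sin x) ^ (2 * l)) =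
        fun x => (2 / π * 4 ^ l) * (sin x ^ (2 * l) - sin x ^ (2 * (l + 1))) := by
      funext x
      have h1 : cos x ^ 2 = 1 - sin x ^ 2 := by
        have := sin_sq_add_cos_sq x
        linarith
      have h2 : (2 * sin x) ^ (2 * l) = 4 ^ l * sin x ^ (2 * l) := by
        rw [mul_pow, pow_mul 2 2 l]
        norm_num
      rw [h1, h2, show 2 * (l + 1) = 2 * l + 2 by ring, pow_add]
      ring
    have hi : ∀ n : ℕ, IntervalIntegrable (fun x => sin x ^ n) volume (-(π / 2)) (π / 2) :=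
      fun n => (continuous_sin.pow n).intervalIntegrable _ _
    rw [e, intervalIntegral.integral_const_mul, intervalIntegral.integral_sub
      (hi (2 * l)) (hi (2 * (l + 1)))]
    have h1 := SBMom_J l
    have h2 := SBMom_J (l + 1)
    have h3 : ((l : ℝ) + 1) * (catalan l : ℝ) = (Nat.centralBinom l : ℝ) := by
      exact_mod_cast succ_mul_catalan_eq_centralBinom l
    have h4 : ((l : ℝ) + 1) * (Nat.centralBinom (l + 1) : ℝ) =
        2 * (2 * (l : ℝ) + 1) * (Nat.centralBinom l : ℝ) := by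
      exact_mod_cast Nat.succ_mul_centralBinom_succ l
    have hl : (0 : ℝ) < (l : ℝ) + 1 := by positivity
    set A := ∫ x in (-(π / 2))..(π / 2), sin x ^ (2 * l)
    set B := ∫ x in (-(π / 2))..(π / 2), sin x ^ (2 * (l + 1))
    have hpi := Real.pi_pos
    have h5 : 2 / π * 4 ^ l * (A - B) = (2 / π) * (4 ^ l * A) - (1 / (2 * π)) * (4 ^ (l + 1) * B) := by
      rw [pow_succ]
      ring
    rw [h5, h1, h2]
    have h6 : (Nat.centralBinom (l + 1) : ℝ) =
        2 * (2 * (l : ℝ) + 1) * (Nat.centralBinom l : ℝ) / ((l : ℝ) + 1) := by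
      rw [eq_div_iff hl.ne']
      linarith
    rw [h6, ← h3]
    field_simp
    ring
  · rw [if_neg (by simp)]
    set f : ℝ → ℝ := fun x => 2 / π * cos x ^ 2 * (2 * sin x) ^ (2 * l + 1) with hf
    have h1 := intervalIntegral.integral_comp_neg (a := -(π / 2)) (b := π / 2) f
    rw [neg_neg] at h1
    have h2 : (fun x => f (-x)) = fun x => -f x := by
      funext x
      rw [hf]
      simp only [cos_neg, sin_neg]
      rw [mul_neg, Odd.neg_pow (by simp : Odd (2 * l + 1))]
      ring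
    rw [h2, intervalIntegral.integral_neg] at h1
    linarith

/-- CHUNK R134-S-MOM.  PROOF: `PB_integral`; odd `k`: the integrand is odd
(`intervalIntegral.integral_comp_neg`); even `k = 2 l`: `cos² = 1 - sin²`, shift the interval to `[0, π]`
(or use `integral_sin_pow` recursion) and `integral_sin_pow_even`; `catalan_eq_centralBinom_div`. -/
theorem PB_S (k : ℕ) : ∫ x, ((SB x : ℝ) : ℂ) ^ k ∂PB = mS k := by
  rw [PB_integral]
  have e : (fun x : ℝ => (((2 / π * cos x ^ 2 : ℝ)) : ℂ) * ((SB x : ℝ) : ℂ) ^ k) =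
      fun x => ((2 / π * cos x ^ 2 * (2 * sin x) ^ k : ℝ) : ℂ) := by
    funext x
    unfold SB
    push_cast
    ring
  rw [e, intervalIntegral.integral_ofReal, SBMom_real]
  unfold mS
  split_ifs <;> simp

end Crest.Agent.FGF
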