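import Crest.Agent.FGF.SB0

/-! ROW 134, CHUNK R134-S-P: the measure `PB`. -/

set_option autoImplicit false

namespace Crest.Agent.FGF

open MeasureTheory Real Set

theorem SBP_dens_nonneg (x : ℝ) : 0 ≤ 2 / π * cos x ^ 2 := by positivity

theorem SBP_dens_meas : Measurable (fun x : ℝ => ENNReal.ofReal (2 / π * cos x ^ 2)) :=
  ((continuous_const.mul (continuous_cos.pow 2)).measurable).ennreal_ofReal

/-- CHUNK R134-S-P.  PROOF: `integral_withDensity_eq_integral_toReal_smul` (or `integral_withDensity_eq_integral_smul`),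
then `intervalIntegral.integral_of_le` and `integral_Ioc_eq_integral_Ioo`. -/
theorem PB_integral (g : ℝ → ℂ) :
    ∫ x, g x ∂PB = ∫ x in (-(π / 2))..(π / 2), (((2 / π * cos x ^ 2 : ℝ)) : ℂ) * g x := by
  unfold PB
  rw [integral_withDensity_eq_integral_toReal_smul SBP_dens_meas
    (Filter.Eventually.of_forall fun x => ENNReal.ofReal_lt_top)]
  have hle : -(π / 2) ≤ π / 2 := by linarith [pi_pos]
  rw [intervalIntegral.integral_of_le hle, integral_Ioc_eq_integral_Ioo]
  unfold IB
  apply integral_congr_ae
  refine Filter.Eventually.of_forall fun x => ?_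
  simp only [ENNReal.toReal_ofReal (SBP_dens_nonneg x)]
  rw [Complex.real_smul]

theorem SBP_lint : ∫⁻ x in IB, ENNReal.ofReal (2 / π * cos x ^ 2) = 1 := by
  have hle : -(π / 2) ≤ π / 2 := by linarith [pi_pos]
  have hcont : Continuous (fun x : ℝ => 2 / π * cos x ^ 2) :=
    continuous_const.mul (continuous_cos.pow 2)
  have hint : IntegrableOn (fun x : ℝ => 2 / π * cos x ^ 2) IB volume := by
    unfold IB
    exact (hcont.integrableOn_Icc).mono_set Ioo_subset_Icc_self
  rw [← ofReal_integral_eq_lintegral_ofReal hint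
    (Filter.Eventually.of_forall fun x => SBP_dens_nonneg x)]
  have h1 : ∫ x in IB, 2 / π * cos x ^ 2 = ∫ x in (-(π / 2))..(π / 2), 2 / π * cos x ^ 2 := by
    rw [intervalIntegral.integral_of_le hle, integral_Ioc_eq_integral_Ioo]
    rfl
  rw [h1, intervalIntegral.integral_const_mul, integral_cos_sq]
  simp only [cos_neg, sin_neg, cos_pi_div_two]
  have : (2 / π * ((0 * sin (π / 2) - 0 * -sin (π / 2) + π / 2 - -(π / 2)) / 2)) = 1 := by
    field_simp
    ring
  rw [this]
  exact ENNReal.ofReal_one

/-- CHUNK R134-S-P.  `∫ (2/π) cos² = 1` (`integral_cos_sq`). -/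
theorem PB_prob : IsProbabilityMeasure PB := by
  constructor
  unfold PB
  rw [withDensity_apply _ MeasurableSet.univ, Measure.restrict_univ]
  exact SBP_lint

instance : IsProbabilityMeasure PB := PB_prob

/-- CHUNK R134-S-P -/
theorem PB_compl : PB IBᶜ = 0 := by
  unfold PB
  rw [withDensity_apply _ IB_meas.compl, Measure.restrict_restrict IB_meas.compl,
    Set.compl_inter_self]
  simp

theorem SBP_ac : PB ≪ volume :=
  (withDensity_absolutelyContinuous _ _).trans Measure.restrict_le_self.absolutelyContinuous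

/-- CHUNK R134-S-P -/
theorem PB_zero : PB {0} = 0 := SBP_ac (by simp)

/-- CHUNK R134-S-P.  The measure is symmetric. -/
theorem PB_neg : MeasurePreserving (fun x : ℝ => -x) PB PB := by
  refine ⟨measurable_neg, ?_⟩
  ext s hs
  rw [Measure.map_apply measurable_neg hs]
  unfold PB
  rw [withDensity_apply _ (measurable_neg hs), withDensity_apply _ hs,
    Measure.restrict_restrict (measurable_neg hs), Measure.restrict_restrict hs]
  have hpre : (fun x : ℝ => -x) ⁻¹' s ∩ IB = (fun x : ℝ => -x) ⁻¹' (s ∩ IB) := by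
    ext x
    simp only [Set.mem_inter_iff, Set.mem_preimage, IB, Set.mem_Ioo]
    constructor
    · rintro ⟨h1, h2, h3⟩; exact ⟨h1, by linarith, by linarith⟩
    · rintro ⟨h1, h2, h3⟩; exact ⟨h1, by linarith, by linarith⟩
  rw [hpre]
  have hmp : MeasurePreserving (fun x : ℝ => -x) volume volume :=
    Measure.measurePreserving_neg volume
  have := hmp.setLIntegral_comp_preimage (hs.inter IB_meas) SBP_dens_meas
  rw [← this]
  simp only [cos_neg]

end Crest.Agent.FGF
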