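import Crest.Agent.FGF.SBP

/-! ROW 134, CHUNK R134-S-Z: Fourier coefficients of `ZB`. -/

set_option autoImplicit false

namespace Crest.Agent.FGF

open MeasureTheory Real Set

/-- CHUNK R134-S-Z.  `GB` has derivative `(2/π) cos²`. -/
theorem GB_deriv (x : ℝ) : HasDerivAt GB (2 / π * cos x ^ 2) x := by
  sorry

/-- CHUNK R134-S-Z.  PROOF: `PB_integral`, split the interval at 0 and reflect: for `x > 0`,
`ZB x ^ n + ZB (-x) ^ n = (1 + (-1)^n) exp (2 π i n GB x)`, and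
`exp (2 π i n GB x) / (2 π i n)` is a primitive of `(2/π) cos² x exp (2 π i n GB x)`;
`GB 0 = 0`, `GB (π/2) = 1/2`. -/
theorem PB_Z (n : ℤ) (hn : n ≠ 0) : ∫ x, ZB x ^ n ∂PB = 0 := by
  sorry

end Crest.Agent.FGF
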