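import Crest.Agent.FGF.Defs

/-! ROW 134, module Semi (lead: helper34): a self-adjoint `s` is a standard semicircular iff its moments
satisfy the Catalan recursion. -/

set_option autoImplicit false
set_option linter.unusedSectionVars false

namespace Crest.Agent.FGF

open Crest.Agent.GenII1

variable {M : Type} [CStarAlgebra M] [FinVN M]

/-- the difference quotient of `s ^ n` -/
noncomputable def semiG (s : M) (n : ℕ) (x y : M) : ℂ :=
  ∑ j ∈ Finset.range n, τ (x * s ^ j) * τ (s ^ (n - 1 - j) * y)

theorem semiG_zero (s x y : M) : semiG s 0 x y = 0 := by simp [semiG]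

theorem semiG_add (s : M) (a b : ℕ) (x y : M) :
    semiG s (a + b) x y = semiG s a x (s ^ b * y) + semiG s b (x * s ^ a) y := by
  unfold semiG
  rw [Finset.sum_range_add]
  congr 1
  · refine Finset.sum_congr rfl fun j hj => ?_
    rw [Finset.mem_range] at hj
    rw [← mul_assoc (s ^ (a - 1 - j)), ← pow_add]
    congr 4
    omega
  · refine Finset.sum_congr rfl fun j hj => ?_
    rw [mul_assoc x, ← pow_add]
    congr 4
    omega

theorem semiG_one (s x y : M) : semiG s 1 x y = τ x * τ y := by
  simp [semiG]

theorem semiG_smul_right (s : M) (n : ℕ) (x y : M) (d : ℂ) :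
    semiG s n x (d • y) = d * semiG s n x y := by
  unfold semiG
  rw [Finset.mul_sum]
  refine Finset.sum_congr rfl fun j _ => ?_
  rw [mul_smul_comm, map_smul, smul_eq_mul]
  ring

theorem semiG_smul_left (s : M) (n : ℕ) (x y : M) (d : ℂ) :
    semiG s n (d • x) y = d * semiG s n x y := by
  unfold semiG
  rw [Finset.mul_sum]
  refine Finset.sum_congr rfl fun j _ => ?_
  rw [smul_mul_assoc, map_smul, smul_eq_mul]
  ring

theorem semiG_add_right (s : M) (n : ℕ) (x y y' : M) :
    semiG s n x (y + y') = semiG s n x y + semiG s n x y' := by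
  unfold semiG
  rw [← Finset.sum_add_distrib]
  refine Finset.sum_congr rfl fun j _ => ?_
  rw [mul_add, map_add]
  ring

theorem semiG_add_left (s : M) (n : ℕ) (x x' y : M) :
    semiG s n (x + x') y = semiG s n x y + semiG s n x' y := by
  unfold semiG
  rw [← Finset.sum_add_distrib]
  refine Finset.sum_congr rfl fun j _ => ?_
  rw [add_mul, map_add]
  ring

/-- the difference quotient of a polynomial in `s` -/
noncomputable def semiT (s : M) (x y : M) : Polynomial ℂ →ₗ[ℂ] ℂ :=
  Polynomial.lsum fun n => LinearMap.mulRight ℂ (semiG s n x y)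

theorem semiT_apply (s x y : M) (p : Polynomial ℂ) :
    semiT s x y p = p.sum fun n c => c * semiG s n x y := rfl

theorem semiT_monomial (s x y : M) (n : ℕ) (c : ℂ) :
    semiT s x y (Polynomial.monomial n c) = c * semiG s n x y := by
  rw [semiT_apply, Polynomial.sum_monomial_index]
  simp

theorem semiT_add_right (s x y y' : M) (p : Polynomial ℂ) :
    semiT s x (y + y') p = semiT s x y p + semiT s x y' p := by
  induction p using Polynomial.induction_on' with
  | add p q hp hq => rw [map_add, map_add, map_add, hp, hq]; ring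
  | monomial n c => simp only [semiT_monomial, semiG_add_right]; ring

theorem semiT_add_left (s x x' y : M) (p : Polynomial ℂ) :
    semiT s (x + x') y p = semiT s x y p + semiT s x' y p := by
  induction p using Polynomial.induction_on' with
  | add p q hp hq => rw [map_add, map_add, map_add, hp, hq]; ring
  | monomial n c => simp only [semiT_monomial, semiG_add_left]; ring

theorem semiT_mul (s x y : M) (p q : Polynomial ℂ) :
    semiT s x y (p * q) = semiT s x (Polynomial.aeval s q * y) p +
      semiT s (x * Polynomial.aeval s p) y q := by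
  induction p using Polynomial.induction_on' with
  | add p p' hp hp' =>
    rw [add_mul, map_add, hp, hp', map_add, map_add, mul_add, semiT_add_left]
    ring
  | monomial a c =>
    induction q using Polynomial.induction_on' with
    | add q q' hq hq' =>
      rw [mul_add, map_add, hq, hq', map_add, map_add, add_mul, semiT_add_right]
      ring
    | monomial b d =>
      rw [Polynomial.monomial_mul_monomial, semiT_monomial, semiT_monomial, semiT_monomial,
        semiG_add, Polynomial.aeval_monomial, Polynomial.aeval_monomial,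
        ← Algebra.smul_def, ← Algebra.smul_def, smul_mul_assoc, mul_smul_comm,
        semiG_smul_right, semiG_smul_left]
      ring

theorem semi_der_pow (s : M) (n : ℕ) :
    Der (Set.range (algebraMap ℂ M)) (fun _ : Unit => s) (fun _ => (1 : ℂ))
      (s ^ n) (semiG s n) := by
  induction n with
  | zero =>
    have h := Der.base (D := Set.range (algebraMap ℂ M)) (s := fun _ : Unit => s)
      (c := fun _ => (1 : ℂ)) 1 ⟨1, map_one _⟩
    have e : semiG s 0 = fun _ _ => 0 := by
      funext x y
      exact semiG_zero s x y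
    rw [e, pow_zero]
    exact h
  | succ n ih =>
    have h := Der.mul _ _ _ _ ih (Der.var (D := Set.range (algebraMap ℂ M))
      (s := fun _ : Unit => s) (c := fun _ => (1 : ℂ)) ())
    have e : semiG s (n + 1) = fun x y => semiG s n x (s * y) +
        (fun x y => (1 : ℂ) * (τ x * τ y)) (x * s ^ n) y := by
      funext x y
      rw [semiG_add, semiG_one, pow_one]
      simp
    rw [e, pow_succ]
    exact h

theorem semi_der_poly (s : M) (z : M) (Θ : M → M → ℂ)
    (h : Der (Set.range (algebraMap ℂ M)) (fun _ : Unit => s) (fun _ => (1 : ℂ)) z Θ) :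
    ∃ p : Polynomial ℂ, z = Polynomial.aeval s p ∧ ∀ x y : M, Θ x y = semiT s x y p := by
  induction h with
  | base d hd =>
    obtain ⟨a, rfl⟩ := hd
    refine ⟨Polynomial.C a, by simp, fun x y => ?_⟩
    rw [← Polynomial.monomial_zero_left, semiT_monomial, semiG_zero, mul_zero]
  | var j =>
    refine ⟨Polynomial.X, by simp, fun x y => ?_⟩
    rw [← Polynomial.monomial_one_one_eq_X, semiT_monomial, semiG_one]
  | add z z' Θ Θ' _ _ ih ih' =>
    obtain ⟨p, hp, hp'⟩ := ih
    obtain ⟨q, hq, hq'⟩ := ih'
    refine ⟨p + q, by rw [map_add, ← hp, ← hq], fun x y => ?_⟩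
    beta_reduce
    rw [map_add, hp', hq']
  | smul a z Θ _ ih =>
    obtain ⟨p, hp, hp'⟩ := ih
    refine ⟨a • p, by rw [map_smul, ← hp], fun x y => ?_⟩
    beta_reduce
    rw [map_smul, hp', smul_eq_mul]
  | mul z z' Θ Θ' _ _ ih ih' =>
    obtain ⟨p, hp, hp'⟩ := ih
    obtain ⟨q, hq, hq'⟩ := ih'
    refine ⟨p * q, by rw [map_mul, ← hp, ← hq], fun x y => ?_⟩
    beta_reduce
    rw [semiT_mul, hp', hq', hp, hq]

/-- CHUNK R134-S-SEMI1.  PROOF.  Apply `hs.sd () (s ^ k) Θ`, where
`Θ x y = ∑ j ∈ range k, τ (x * s ^ j) * τ (s ^ (k - 1 - j) * y)`; that `(s ^ k, Θ)` is a `Der` pair is shown by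
induction on `k` (`Der.mul` with `z = s ^ k`, `z' = s`; `Der` pairs are only up to `funext` equality of `Θ`). -/
theorem IsSemi.moments {s : M} (hs : IsSemi s) (k : ℕ) :
    τ (s ^ (k + 1)) = ∑ j ∈ Finset.range k, τ (s ^ j) * τ (s ^ (k - 1 - j)) := by
  have h := hs.sd () (s ^ k) _ (semi_der_pow s k)
  rw [pow_succ', h, semiG]
  refine Finset.sum_congr rfl fun j _ => ?_
  rw [one_mul, mul_one]

/-- CHUNK R134-S-SEMI2.  PROOF.  By induction on `Der`: every pair `(z, Θ)` (for `D` = scalars, one variable,
`c = 1`) has the form `z = aeval s p`, `Θ x y = p.sum fun k a => a * ∑ j ∈ range k, τ (x * s^j) * τ (s^(k-1-j) * y)`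
for a polynomial `p` (base: `p = C c`; var: `p = X`; add, smul: linearity; mul: Leibniz rule, on monomials
`∑_{j<a+b} = ∑_{j<a} + ∑_{i<b}`).  Then `τ (s * aeval s p) = ∑ p_k τ (s^(k+1))` and use `h`. -/
theorem isSemi_of_moments {s : M} (hs : IsSelfAdjoint s)
    (h : ∀ k : ℕ, τ (s ^ (k + 1)) = ∑ j ∈ Finset.range k, τ (s ^ j) * τ (s ^ (k - 1 - j))) :
    IsSemi s := by
  refine ⟨hs, ?_⟩
  intro i z Θ hz
  obtain ⟨p, hz', hp⟩ := semi_der_poly s z Θ hz
  rw [hp, hz']
  clear hp hz hz' Θ z
  induction p using Polynomial.induction_on' with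
  | add p q hp hq => rw [map_add, mul_add, map_add, map_add, hp, hq]
  | monomial n c =>
    rw [semiT_monomial, Polynomial.aeval_monomial, ← Algebra.smul_def, mul_smul_comm, map_smul,
      smul_eq_mul, ← pow_succ', h, semiG]
    congr 1
    refine Finset.sum_congr rfl fun j _ => ?_
    rw [one_mul, mul_one]

end Crest.Agent.FGF
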