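import Crest.Agent.FGF.SBMom
import Crest.Agent.FGF.SBZ
import Crest.Agent.FGF.SBInj

/-! ROW 134, module Semi: all facts of the base space. -/
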