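import Crest.Agent.FGF.SemiBase

/-! ROW 134, module Semi (lead: helper34): density of continuous functions with norm control. -/

set_option autoImplicit false

namespace Crest.Agent.FGF

open MeasureTheory Real Set

/-- clamp a complex number to the square `[-C, C]²` -/
noncomputable def SemiDens_clamp (C : ℝ) (w : ℂ) : ℂ :=
  ⟨max (-C) (min C w.re), max (-C) (min C w.im)⟩

theorem SemiDens_clamp_cont (C : ℝ) : Continuous (SemiDens_clamp C) := by
  have h : SemiDens_clamp C = fun w : ℂ => ((max (-C) (min C w.re) : ℝ) : ℂ) +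
      ((max (-C) (min C w.im) : ℝ) : ℂ) * Complex.I := by
    funext w
    apply Complex.ext <;> simp [SemiDens_clamp]
  rw [h]
  have h1 : Continuous fun w : ℂ => max (-C) (min C w.re) :=
    continuous_const.max (continuous_const.min Complex.continuous_re)
  have h2 : Continuous fun w : ℂ => max (-C) (min C w.im) :=
    continuous_const.max (continuous_const.min Complex.continuous_im)
  exact (Complex.continuous_ofReal.comp h1).add
    ((Complex.continuous_ofReal.comp h2).mul continuous_const)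

theorem SemiDens_clamp_norm {C : ℝ} (hC : 0 ≤ C) (w : ℂ) : ‖SemiDens_clamp C w‖ ≤ 2 * C := by
  refine (Complex.norm_le_abs_re_add_abs_im _).trans ?_
  have h : ∀ a : ℝ, |max (-C) (min C a)| ≤ C := fun a => by
    rw [abs_le]
    exact ⟨le_max_left _ _, max_le (by linarith) (min_le_left _ _)⟩
  have h1 := h w.re
  have h2 := h w.im
  change |max (-C) (min C w.re)| + |max (-C) (min C w.im)| ≤ 2 * C
  linarith

theorem SemiDens_clamp_real {C a b : ℝ} (hb : |b| ≤ C) :
    (max (-C) (min C a) - b) ^ 2 ≤ (a - b) ^ 2 := by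
  rw [abs_le] at hb
  obtain ⟨hb1, hb2⟩ := hb
  rcases le_total C a with h | h
  · rw [min_eq_left h, max_eq_right (by linarith)]
    nlinarith
  · rw [min_eq_right h]
    rcases le_total (-C) a with h' | h'
    · rw [max_eq_right h']
    · rw [max_eq_left h']
      nlinarith

theorem SemiDens_clamp_le {C : ℝ} {w v : ℂ} (hv : ‖v‖ ≤ C) :
    ‖SemiDens_clamp C w - v‖ ^ 2 ≤ ‖w - v‖ ^ 2 := by
  rw [Complex.sq_norm, Complex.sq_norm, Complex.normSq_apply, Complex.normSq_apply]
  have h1 := SemiDens_clamp_real (a := w.re) ((Complex.abs_re_le_norm v).trans hv)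
  have h2 := SemiDens_clamp_real (a := w.im) ((Complex.abs_im_le_norm v).trans hv)
  have e1 : (SemiDens_clamp C w - v).re = max (-C) (min C w.re) - v.re := rfl
  have e2 : (SemiDens_clamp C w - v).im = max (-C) (min C w.im) - v.im := rfl
  rw [e1, e2, Complex.sub_re, Complex.sub_im]
  nlinarith

/-- CHUNK R134-S-DENS.  PROOF.  Let `T' : ℝ → K`, `x ↦ ⟨T x, hTK x⟩` (measurable), `ν = PB.map T'` (a
probability measure on the compact metric space `K`, weakly regular).  The restriction of `T'` to the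
subtype `IB` is measurable and injective between standard Borel spaces, hence a measurable embedding
(`Measurable.measurableEmbedding`); `MeasurableEmbedding.exists_measurable_extend` gives a measurable
`F : K → ℂ` with `F (T' x) = φ x` for `x ∈ IB`, and we may assume `‖F‖ ≤ C` (replace `F z` by 0 if
`C < ‖F z‖`).  `F ∈ L²(ν)`; `MemLp.exists_boundedContinuous_eLpNorm_sub_le` gives a continuous `g` with
`∫ ‖g - F‖² dν ≤ ε`.  Let `h = clamp ∘ g`, `clamp w = max (-C) (min C (re w)) + i max (-C) (min C (im w))`: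
continuous, `‖h‖ ≤ 2 C`, and `‖clamp w - v‖ ≤ ‖w - v‖` if `‖v‖ ≤ C`.  Finally
`∫ ‖h (T' x) - φ x‖² dPB = ∫ ‖h - F‖² dν` (`PB_compl`, `integral_map`). -/
theorem dens (K : Set ℂ) (hK : IsCompact K) (T : ℝ → ℂ) (hT : Measurable T) (hTK : ∀ x, T x ∈ K)
    (hinj : InjOn T IB) (φ : ℝ → ℂ) (hφ : Measurable φ) (C : ℝ) (hC : ∀ x, ‖φ x‖ ≤ C) (ε : ℝ)
    (hε : 0 < ε) :
    ∃ h : C(K, ℂ), (∀ z, ‖h z‖ ≤ 2 * C) ∧ ∫ x, ‖h ⟨T x, hTK x⟩ - φ x‖ ^ 2 ∂PB ≤ ε := by
  have hC0 : 0 ≤ C := (norm_nonneg _).trans (hC 0)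
  haveI : CompactSpace K := isCompact_iff_compactSpace.mp hK
  let T' : ℝ → K := fun x => ⟨T x, hTK x⟩
  have hT' : Measurable T' := hT.subtype_mk
  let ν : Measure K := PB.map T'
  haveI : IsProbabilityMeasure ν := Measure.isProbabilityMeasure_map hT'.aemeasurable
  -- the measurable embedding
  haveI : StandardBorelSpace IB := IB_meas.standardBorel
  have hemb : MeasurableEmbedding (fun x : IB => T' x.1) := by
    apply Measurable.measurableEmbedding
    · exact hT'.comp measurable_subtype_coe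
    · intro x y hxy
      exact Subtype.ext (hinj x.2 y.2 (congrArg Subtype.val hxy))
  obtain ⟨F0, hF0m, hF0⟩ := hemb.exists_measurable_extend
    (hφ.comp (measurable_subtype_coe (p := fun x => x ∈ IB))) (fun _ => ⟨(0 : ℂ)⟩)
  let F : K → ℂ := fun z => if ‖F0 z‖ ≤ C then F0 z else 0
  have hFm : Measurable F :=
    Measurable.ite (measurableSet_le hF0m.norm measurable_const) hF0m measurable_const
  have hFC : ∀ z, ‖F z‖ ≤ C := by
    intro z
    by_cases h : ‖F0 z‖ ≤ C
    · simp only [F, if_pos h]; exact h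
    · simp only [F, if_neg h, norm_zero]; exact hC0
  have hFφ : ∀ x ∈ IB, F (T' x) = φ x := by
    intro x hx
    have h1 : F0 (T' x) = φ x := congrFun hF0 ⟨x, hx⟩
    have h2 : ‖F0 (T' x)‖ ≤ C := by rw [h1]; exact hC x
    simp only [F, if_pos h2, h1]
  have hFL : MemLp F 2 ν := MemLp.of_bound hFm.aestronglyMeasurable C (Filter.Eventually.of_forall hFC)
  obtain ⟨g, hg, hgL⟩ := hFL.exists_boundedContinuous_eLpNorm_sub_le (by simp)
    (ε := ENNReal.ofReal (√ε)) (by simpa using Real.sqrt_pos.mpr hε)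
  have hgF : MemLp (F - (g : K → ℂ)) 2 ν := hFL.sub hgL
  have hint : ∫ z, ‖F z - g z‖ ^ 2 ∂ν ≤ ε := by
    rw [hgF.eLpNorm_eq_integral_rpow_norm (by simp) (by simp)] at hg
    have h0 : 0 ≤ ∫ z, ‖F z - g z‖ ^ 2 ∂ν := integral_nonneg fun z => by positivity
    have h1 := (ENNReal.ofReal_le_ofReal_iff (Real.sqrt_nonneg ε)).mp hg
    simp only [ENNReal.toReal_ofNat, Pi.sub_apply, Real.rpow_ofNat] at h1
    have h2 : √(∫ z, ‖F z - g z‖ ^ 2 ∂ν) ≤ √ε := by
      rw [Real.sqrt_eq_rpow (∫ z, ‖F z - g z‖ ^ 2 ∂ν), one_div]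
      exact h1
    exact (Real.sqrt_le_sqrt_iff hε.le).mp h2
  let h : C(K, ℂ) := ⟨fun z => SemiDens_clamp C (g z), (SemiDens_clamp_cont C).comp g.continuous⟩
  refine ⟨h, fun z => SemiDens_clamp_norm hC0 _, ?_⟩
  have e1 : ∫ x, ‖h ⟨T x, hTK x⟩ - φ x‖ ^ 2 ∂PB = ∫ x, ‖h (T' x) - F (T' x)‖ ^ 2 ∂PB := by
    apply integral_congr_ae
    have : ∀ᵐ x ∂PB, x ∈ IB := PB_compl
    filter_upwards [this] with x hx
    rw [hFφ x hx]
  have e2 : ∫ x, ‖h (T' x) - F (T' x)‖ ^ 2 ∂PB = ∫ z, ‖h z - F z‖ ^ 2 ∂ν := by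
    rw [integral_map hT'.aemeasurable]
    exact ((h.continuous.measurable.sub hFm).norm.pow_const 2).aestronglyMeasurable
  rw [e1, e2]
  refine le_trans (integral_mono_of_nonneg (Filter.Eventually.of_forall fun z => by positivity)
    ?_ (Filter.Eventually.of_forall fun z => ?_)) hint
  · have := hgF.integrable_norm_pow (p := 2) (by simp)
    simpa using this
  · change ‖SemiDens_clamp C (g z) - F z‖ ^ 2 ≤ ‖F z - g z‖ ^ 2
    rw [norm_sub_rev (F z)]
    exact SemiDens_clamp_le (hFC z)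

end Crest.Agent.FGF
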